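import Mathlib
import Vale.Agent.P116.H906.LL

/-!
# Averages of cutoffs of a random conformal map

`F : Ω → ℂ → ℂ` jointly continuous on `Ω × G`, holomorphic and injective in `G`; `χ` a `C¹`
function of compact support; `g z = ∫ χ (F ω z - b ω)`.
-/

open Set Filter Topology Metric MeasureTheory

namespace Vale.Agent.P116.KF.H813

variable {Ω : Type*} [TopologicalSpace Ω] {G : Set ℂ} {F : Ω → ℂ → ℂ}

/-- near `ω₀` the maps are uniformly close on a compact set -/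
lemma unif_near (hF : ContinuousOn (fun p : Ω × ℂ => F p.1 p.2) (univ ×ˢ G)) {A : Set ℂ}
    (hA : IsCompact A) (hAG : A ⊆ G) (ω₀ : Ω) {ε : ℝ} (hε : 0 < ε) :
    ∀ᶠ ω in 𝓝 ω₀, ∀ z ∈ A, ‖F ω z - F ω₀ z‖ < ε := by
  refine hA.induction_on (p := fun A => ∀ᶠ ω in 𝓝 ω₀, ∀ z ∈ A, ‖F ω z - F ω₀ z‖ < ε)
    (by simp) ?_ ?_ ?_
  · intro s t hst h
    filter_upwards [h] with ω hω z hz using hω z (hst hz)
  · intro s t hs ht
    filter_upwards [hs, ht] with ω h1 h2 z hz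
    exact hz.elim (h1 z) (h2 z)
  · intro z hz
    have h1 : ContinuousWithinAt (fun p : Ω × ℂ => F p.1 p.2) (univ ×ˢ G) (ω₀, z) :=
      hF (ω₀, z) ⟨mem_univ _, hAG hz⟩
    have h2 : ContinuousWithinAt (fun p : Ω × ℂ => F p.1 p.2) (univ ×ˢ A) (ω₀, z) :=
      h1.mono (prod_mono_right hAG)
    have h3 := (Metric.continuousWithinAt_iff'.1 h2) (ε / 2) (by positivity)
    rw [nhdsWithin_prod_eq, nhdsWithin_univ, Filter.eventually_prod_iff] at h3
    obtain ⟨pa, hpa, pb, hpb, hab⟩ := h3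
    refine ⟨{y | pb y}, hpb, ?_⟩
    have h4 := hpa.self_of_nhds
    filter_upwards [hpa] with ω hω y hy
    have h5 := hab hω hy
    have h6 := hab h4 hy
    simp only [dist_eq_norm] at h5 h6
    calc ‖F ω y - F ω₀ y‖ = ‖(F ω y - F ω₀ z) - (F ω₀ y - F ω₀ z)‖ := by ring_nf
      _ ≤ ‖F ω y - F ω₀ z‖ + ‖F ω₀ y - F ω₀ z‖ := norm_sub_le _ _
      _ < ε := by linarith

/-- joint continuity of the derivative -/
theorem continuousOn_deriv (hG : IsOpen G)
    (hF : ContinuousOn (fun p : Ω × ℂ => F p.1 p.2) (univ ×ˢ G))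
    (hd : ∀ ω, DifferentiableOn ℂ (F ω) G) :
    ContinuousOn (fun p : Ω × ℂ => deriv (F p.1) p.2) (univ ×ˢ G) := by
  rintro ⟨ω₀, z₀⟩ ⟨-, hz₀⟩
  apply ContinuousAt.continuousWithinAt
  obtain ⟨r, hr, hrG⟩ := Metric.isOpen_iff.1 hG z₀ hz₀
  have hsub : closedBall z₀ (r / 2) ⊆ G :=
    (closedBall_subset_ball (by linarith)).trans hrG
  rw [Metric.continuousAt_iff']
  intro ε hε
  have h1 := unif_near hF (isCompact_closedBall z₀ (r / 2)) hsub ω₀
    (ε := ε / 4 * (r / 4)) (by positivity)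
  have h2 : ContinuousAt (deriv (F ω₀)) z₀ :=
    ((((hd ω₀).deriv hG).differentiableAt (hG.mem_nhds hz₀))).continuousAt
  have h3 := Metric.continuousAt_iff'.1 h2 (ε / 2) (by positivity)
  have h4 : ∀ᶠ z in 𝓝 z₀, z ∈ ball z₀ (r / 4) := ball_mem_nhds _ (by positivity)
  rw [nhds_prod_eq, Filter.eventually_prod_iff]
  refine ⟨_, h1, _, h3.and h4, ?_⟩
  rintro ω hω z ⟨hz1, hz2⟩
  simp only
  have hzG : closedBall z (r / 4) ⊆ closedBall z₀ (r / 2) := by
    refine closedBall_subset_closedBall' ?_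
    rw [mem_ball] at hz2
    linarith
  have h5 : ‖deriv (fun y => F ω y - F ω₀ y) z‖ ≤ (ε / 4 * (r / 4)) / (r / 4) := by
    refine Complex.norm_deriv_le_of_forall_mem_sphere_norm_le (by positivity) ?_ ?_
    · refine ((hd ω).sub (hd ω₀)).diffContOnCl_ball ?_ 
      exact hzG.trans hsub
    · intro y hy
      exact (hω y (hzG (sphere_subset_closedBall hy))).le
  have hzG' : z ∈ G := hsub (hzG (mem_closedBall_self (by positivity)))
  have h6 : deriv (fun y => F ω y - F ω₀ y) z = deriv (F ω) z - deriv (F ω₀) z :=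
    deriv_sub ((hd ω).differentiableAt (hG.mem_nhds hzG'))
      ((hd ω₀).differentiableAt (hG.mem_nhds hzG'))
  rw [h6, mul_div_assoc, div_self (by positivity), mul_one] at h5
  rw [dist_eq_norm] at hz1 ⊢
  calc ‖deriv (F ω) z - deriv (F ω₀) z₀‖
      = ‖(deriv (F ω) z - deriv (F ω₀) z) + (deriv (F ω₀) z - deriv (F ω₀) z₀)‖ := by ring_nf
    _ ≤ ‖deriv (F ω) z - deriv (F ω₀) z‖ + ‖deriv (F ω₀) z - deriv (F ω₀) z₀‖ := norm_add_le _ _
    _ < ε := by linarith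

end Vale.Agent.P116.KF.H813
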